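import Vale.Agent.P313.H215.UV.E

/-!
Module D: decoding the word for a machine.
-/

namespace Vale.Agent.P313.UV.D

open Finset UD UDS

/-! ### Words bit by bit -/

theorem inSym_cons (a : Bool) (w : List Bool) (p : ℕ) :
    inSym (a :: w) (p + 1 + 1) = inSym w (p + 1) := by
  simp only [inSym, Nat.add_one_ne_zero, if_false, Nat.add_sub_cancel, List.getElem?_cons_succ]

theorem inSym_one (a : Bool) (w : List Bool) : inSym (a :: w) (0 + 1) = InSym.bit a := by
  simp only [inSym, Nat.add_one_ne_zero, if_false, Nat.add_sub_cancel, List.getElem?_cons_zero]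

theorem syc_true : syc (InSym.bit true) = 3 := rfl
theorem syc_false : syc (InSym.bit false) = 2 := rfl

theorem zc_zero (w : List Bool) : zc w 0 = 0 := by simp [zc]

theorem zc_true (w : List Bool) (p : ℕ) : zc (true :: w) (p + 1) = zc w p := by
  unfold zc
  rw [sum_range_succ', inSym_one, if_neg (by rw [syc_true]; decide), add_zero]
  exact sum_congr rfl fun i _ => by rw [inSym_cons]

theorem zc_false (w : List Bool) (p : ℕ) : zc (false :: w) (p + 1) = 1 + zc w p := by
  unfold zc
  rw [sum_range_succ', inSym_one, if_pos syc_false, add_comm]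
  exact congrArg _ (sum_congr rfl fun i _ => by rw [inSym_cons])

theorem blk_true_zero (w : List Bool) : blk (true :: w) 0 = 1 + blk w 0 := by
  unfold blk
  rw [List.length_cons, sum_range_succ', inSym_one, zc_zero, add_comm, syc_true]
  congr 1
  refine sum_congr rfl fun i _ => ?_
  rw [inSym_cons, zc_true]

theorem blk_true_succ (w : List Bool) (i : ℕ) : blk (true :: w) (i + 1) = blk w (i + 1) := by
  unfold blk
  rw [List.length_cons, sum_range_succ', inSym_one, zc_zero, syc_true,
    if_neg (by rintro ⟨_, h⟩; omega), add_zero]
  refine sum_congr rfl fun i _ => ?_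
  rw [inSym_cons, zc_true]

theorem blk_false_zero (w : List Bool) : blk (false :: w) 0 = 0 := by
  unfold blk
  rw [List.length_cons, sum_range_succ', inSym_one, zc_zero, syc_false,
    if_neg (by rintro ⟨h, _⟩; omega), add_zero]
  refine sum_eq_zero fun i _ => ?_
  rw [zc_false, if_neg (by rintro ⟨_, h⟩; omega)]

theorem blk_false_succ (w : List Bool) (i : ℕ) : blk (false :: w) (i + 1) = blk w i := by
  unfold blk
  rw [List.length_cons, sum_range_succ', inSym_one, zc_zero, syc_false,
    if_neg (by rintro ⟨h, _⟩; omega), add_zero]
  refine sum_congr rfl fun j _ => ?_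
  rw [inSym_cons, zc_false]
  refine if_congr ?_ rfl rfl
  constructor
  · rintro ⟨h1, h2⟩; exact ⟨h1, by omega⟩
  · rintro ⟨h1, h2⟩; exact ⟨h1, by omega⟩

theorem off_zero (w : List Bool) : off w 0 = 0 := by
  unfold off
  exact sum_eq_zero fun i _ => if_neg (by omega)

theorem off_true_succ (w : List Bool) (m : ℕ) : off (true :: w) (m + 1) = 1 + off w (m + 1) := by
  unfold off
  rw [List.length_cons, sum_range_succ', zc_zero, if_pos (Nat.succ_pos m), add_comm]
  congr 1
  refine sum_congr rfl fun i _ => ?_
  rw [zc_true]

theorem off_false_succ (w : List Bool) (m : ℕ) : off (false :: w) (m + 1) = 1 + off w m := by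
  unfold off
  rw [List.length_cons, sum_range_succ', zc_zero, if_pos (Nat.succ_pos m), add_comm]
  congr 1
  refine sum_congr rfl fun i _ => ?_
  rw [zc_false]
  exact if_congr (by omega) rfl rfl

/-! ### Blocks -/

theorem blk_rep_zero (k : ℕ) (w : List Bool) :
    blk (List.replicate k true ++ false :: w) 0 = k := by
  induction k with
  | zero => exact blk_false_zero w
  | succ k ih => rw [List.replicate_succ, List.cons_append, blk_true_zero, ih, add_comm]

theorem blk_rep_succ (k : ℕ) (w : List Bool) (i : ℕ) :
    blk (List.replicate k true ++ false :: w) (i + 1) = blk w i := by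
  induction k with
  | zero => exact blk_false_succ w i
  | succ k ih => rw [List.replicate_succ, List.cons_append, blk_true_succ, ih]

theorem off_rep_succ (k : ℕ) (w : List Bool) (m : ℕ) :
    off (List.replicate k true ++ false :: w) (m + 1) = k + 1 + off w m := by
  induction k with
  | zero =>
    rw [List.replicate_zero, List.nil_append, off_false_succ, zero_add]
  | succ k ih =>
    rw [List.replicate_succ, List.cons_append, off_true_succ, ih]
    ring

theorem unary_cons (k : ℕ) (l : List ℕ) (x : List Bool) :
    unary (k :: l) ++ x = List.replicate k true ++ false :: (unary l ++ x) := by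
  unfold unary
  rw [List.flatMap_cons, List.append_assoc, List.append_assoc]
  rfl

theorem length_unary_cons (k : ℕ) (l : List ℕ) :
    (unary (k :: l)).length = k + 1 + (unary l).length := by
  unfold unary
  rw [List.flatMap_cons, List.length_append, List.length_append, List.length_replicate]
  rfl

theorem blk_unary (l : List ℕ) (x : List Bool) :
    ∀ i, i < l.length → blk (unary l ++ x) i = l.getD i 0 := by
  induction l with
  | nil => intro i hi; exact absurd hi (Nat.not_lt_zero _)
  | cons k l ih =>
    intro i hi
    rw [unary_cons]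
    cases i with
    | zero => rw [blk_rep_zero]; rfl
    | succ i =>
      rw [blk_rep_succ, ih i (by simpa using hi)]
      rfl

theorem off_unary (l : List ℕ) (x : List Bool) :
    off (unary l ++ x) l.length = (unary l).length := by
  induction l with
  | nil => exact off_zero _
  | cons k l ih =>
    rw [unary_cons, List.length_cons, off_rep_succ, ih, length_unary_cons]

theorem length_le_unary (l : List ℕ) : l.length ≤ (unary l).length := by
  induction l with
  | nil => exact Nat.zero_le _
  | cons k l ih => rw [length_unary_cons, List.length_cons]; omega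

theorem inSym_append (u x : List Bool) (p : ℕ) (hp : p ≠ 0) :
    inSym (u ++ x) (u.length + p) = inSym x p := by
  unfold inSym
  rw [if_neg hp, if_neg (by omega)]
  have h : u.length + p - 1 = u.length + (p - 1) := by omega
  rw [h, List.getElem?_append_right (by omega), Nat.add_sub_cancel_left]

/-! ### The specification -/

theorem verNo_eq (o : Option Bool) : verNo o = U1.vc o := by
  rcases o with _ | _ | _ <;> rfl

/-- MODULE D. -/
theorem decodeSpec : DecodeSpec := by
  intro M c l x hl
  obtain ⟨h0, h1, h2, h3, h4, h5, h6, h7⟩ := hl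
  have hS : nSt M = Fintype.card M.State := rfl
  have hg : nSy M = M.g := rfl
  have hQ : ∀ q, stNo M q = M.cQ q := fun q => rfl
  have hSp : 0 < nSt M := by
    rw [hS]
    exact Fintype.card_pos_iff.2 ⟨M.start⟩
  have hb := blk_unary l x
  have e0 : tpW (unary l ++ x) = M.tapes := by
    unfold tpW
    rw [hb 0 (by omega), h1]
  have e1 : gW (unary l ++ x) = M.g := by
    unfold gW
    rw [hb 1 (by omega), h2, hg]
  have e2 : qW (unary l ++ x) = nSt M := by
    unfold qW
    rw [hb 2 (by omega), h3]
  have e3 : stW (unary l ++ x) = M.cQ M.start := by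
    unfold stW
    rw [hb 3 (by omega), h4, hQ]
  have e4 : cW (unary l ++ x) = c := by
    unfold cW
    rw [hb 4 (by omega), h5]
  have hn : nkW (unary l ++ x) = nKey M := by
    unfold nkW nKey
    rw [e0, e1, e2, hg]
    have a1 : M.g ^ M.tapes ≤ l.length := by
      rw [h0]
      have b1 : 1 * 1 * M.g ^ M.tapes * 1 ≤ 2 * (nSt M * 4 * M.g ^ M.tapes) * (2 + 2 * M.tapes) :=
        Nat.mul_le_mul (by
          calc 1 * 1 * M.g ^ M.tapes = M.g ^ M.tapes := by ring
            _ ≤ nSt M * M.g ^ M.tapes := Nat.le_mul_of_pos_left _ hSp
            _ ≤ 2 * (nSt M * 4 * M.g ^ M.tapes) := by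
              have : 2 * (nSt M * 4 * M.g ^ M.tapes) = 8 * (nSt M * M.g ^ M.tapes) := by ring
              omega) (by omega)
      have b2 : nKey M = nSt M * 4 * M.g ^ M.tapes := rfl
      rw [b2]
      omega
    have a2 := length_le_unary l
    rw [min_eq_left]
    rw [List.length_append]
    omega
  have hm : mW (unary l ++ x) = l.length := by
    unfold mW
    rw [e2, hn, e0, h0]
  have ho : off (unary l ++ x) (mW (unary l ++ x)) = (unary l).length := by
    rw [hm, off_unary]
  refine ⟨e0, e1, e2, e3, e4, ?_, ?_, ?_, ?_⟩
  · intro q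
    unfold vtW
    have a1 := E.stNo_lt M q
    rw [← hQ, hb _ (by omega), h6, verNo_eq]
  · intro b q s h i hi
    unfold tbW
    rw [e2, hn, e0]
    have k1 := E.keyNo_lt M q s h
    have k2 : b.toNat * nKey M + keyNo M q s h + 1 ≤ 2 * nKey M := by
      cases b
      · simp only [Bool.toNat_false]; omega
      · simp only [Bool.toNat_true]; omega
    have k3 : (b.toNat * nKey M + keyNo M q s h) * (2 + 2 * M.tapes) + (2 + 2 * M.tapes) ≤
        2 * nKey M * (2 + 2 * M.tapes) := by
      calc _ = (b.toNat * nKey M + keyNo M q s h + 1) * (2 + 2 * M.tapes) := by ring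
        _ ≤ _ := Nat.mul_le_mul_right _ k2
    rw [hb _ (by omega), h7 b q s h i hi]
  · unfold nW
    rw [ho, List.length_append, Nat.add_sub_cancel_left]
  · intro p
    unfold syW
    split_ifs with hp
    · rw [hp]; rfl
    · rw [ho, inSym_append _ _ _ hp]

end Vale.Agent.P313.UV.D
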