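import Vale.Agent.P313.H463.UV.Defs

/-!
Module E: every randomized machine has a code.
-/

namespace Vale.Agent.P313.UV.E

open Finset UDS

/-! ### Digits -/

theorem dig_lt {B : ℕ} (n : ℕ) (d : Fin n → ℕ) (h : ∀ i, d i < B) :
    ∑ i, d i * B ^ (i : ℕ) < B ^ n := by
  induction n with
  | zero => simp
  | succ n ih =>
    rw [Fin.sum_univ_castSucc]
    have h1 := ih (fun i => d i.castSucc) (fun i => h _)
    simp only [Fin.val_castSucc, Fin.val_last]
    have h2 : d (Fin.last n) * B ^ n + B ^ n ≤ B * B ^ n := by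
      calc d (Fin.last n) * B ^ n + B ^ n = (d (Fin.last n) + 1) * B ^ n := by ring
        _ ≤ B * B ^ n := Nat.mul_le_mul_right _ (h _)
    rw [pow_succ']
    omega

theorem dig_inj {B : ℕ} (n : ℕ) (d e : Fin n → ℕ) (hd : ∀ i, d i < B) (he : ∀ i, e i < B)
    (h : ∑ i, d i * B ^ (i : ℕ) = ∑ i, e i * B ^ (i : ℕ)) : d = e := by
  induction n with
  | zero => exact funext fun i => i.elim0
  | succ n ih =>
    rw [Fin.sum_univ_castSucc, Fin.sum_univ_castSucc] at h
    simp only [Fin.val_castSucc, Fin.val_last] at h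
    have h1 := dig_lt n (fun i => d i.castSucc) (fun i => hd _)
    have h2 := dig_lt n (fun i => e i.castSucc) (fun i => he _)
    have hB : 0 < B ^ n := lt_of_le_of_lt (Nat.zero_le _) h1
    have e1 : d (Fin.last n) = e (Fin.last n) := by
      have a1 := congrArg (· / B ^ n) h
      simp only [Nat.add_mul_div_right _ _ hB, Nat.div_eq_of_lt h1, Nat.div_eq_of_lt h2,
        zero_add] at a1
      exact a1
    have e2 : (∑ i : Fin n, d i.castSucc * B ^ (i : ℕ)) = ∑ i : Fin n, e i.castSucc * B ^ (i : ℕ) := by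
      rw [e1] at h
      omega
    have e3 := ih (fun i => d i.castSucc) (fun i => e i.castSucc) (fun i => hd _) (fun i => he _) e2
    funext i
    refine Fin.lastCases e1 (fun j => ?_) i
    exact congrFun e3 j

/-! ### The number of a situation -/

variable (M : RTM)

theorem stNo_lt (q : M.State) : stNo M q < nSt M := by
  unfold stNo nSt
  exact Fin.is_lt _

theorem stNo_inj {q q' : M.State} (h : stNo M q = stNo M q') : q = q' := by
  unfold stNo at h
  exact (@Fintype.equivFin M.State M.stateFin).injective (Fin.ext h)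

theorem syNo_lt (a : M.Sym) : syNo M a < nSy M := by
  unfold syNo nSy
  split_ifs
  · exact Nat.succ_pos _
  · exact Nat.succ_lt_succ (Fin.is_lt _)

theorem syNo_inj {a a' : M.Sym} (h : syNo M a = syNo M a') : a = a' := by
  unfold syNo at h
  split_ifs at h with h1 h2 h2
  · rw [h1, h2]
  · exact (@Fintype.equivFin M.Sym M.symFin).injective (Fin.ext (Nat.succ_injective h))

theorem inNo_lt (s : InSym) : inNo s < 4 := by
  rcases s with _ | _ | b
  · decide
  · decide
  · cases b <;> decide

theorem inNo_inj {s s' : InSym} (h : inNo s = inNo s') : s = s' := by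
  rcases s with _ | _ | b <;> rcases s' with _ | _ | b' <;>
    (try cases b) <;> (try cases b') <;> first | rfl | (exact absurd h (by decide))

theorem keyNo_lt (q : M.State) (s : InSym) (h : Fin M.tapes → M.Sym) :
    keyNo M q s h < nKey M := by
  have h1 := stNo_lt M q
  have h2 := inNo_lt s
  have h3 := dig_lt (B := nSy M) M.tapes (fun i => syNo M (h i)) (fun i => syNo_lt M _)
  unfold keyNo nKey
  generalize (∑ i, syNo M (h i) * nSy M ^ (i : ℕ)) = S at h3 ⊢
  generalize nSy M ^ M.tapes = G at h3 ⊢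
  have h4 : inNo s + 4 * S + 1 ≤ 4 * G := by omega
  calc stNo M q + nSt M * (inNo s + 4 * S) < nSt M + nSt M * (inNo s + 4 * S) := by omega
    _ = nSt M * (inNo s + 4 * S + 1) := by ring
    _ ≤ nSt M * (4 * G) := Nat.mul_le_mul_left _ h4
    _ = nSt M * 4 * G := by ring

theorem keyNo_inj {q q' : M.State} {s s' : InSym} {h h' : Fin M.tapes → M.Sym}
    (e : keyNo M q s h = keyNo M q' s' h') : q = q' ∧ s = s' ∧ h = h' := by
  have h1 := stNo_lt M q
  have h1' := stNo_lt M q'
  have h2 := inNo_lt s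
  have h2' := inNo_lt s'
  unfold keyNo at e
  have hp : 0 < nSt M := lt_of_le_of_lt (Nat.zero_le _) h1
  have a1 := congrArg (· % nSt M) e
  simp only [Nat.add_mul_mod_self_left, Nat.mod_eq_of_lt h1, Nat.mod_eq_of_lt h1'] at a1
  have a2 := congrArg (· / nSt M) e
  simp only [Nat.add_mul_div_left _ _ hp, Nat.div_eq_of_lt h1, Nat.div_eq_of_lt h1',
    zero_add] at a2
  have a3 : inNo s = inNo s' := by omega
  have a4 : (∑ i, syNo M (h i) * nSy M ^ (i : ℕ)) = ∑ i, syNo M (h' i) * nSy M ^ (i : ℕ) := by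
    omega
  refine ⟨stNo_inj M a1, inNo_inj a3, ?_⟩
  have a5 := dig_inj M.tapes (fun i => syNo M (h i)) (fun i => syNo M (h' i))
    (fun i => syNo_lt M _) (fun i => syNo_lt M _) a4
  funext i
  exact syNo_inj M (congrFun a5 i)

/-! ### The list -/

/-- Entry `r` of the two transition tables. -/
def Ent (r v : ℕ) : Prop :=
  ∃ (b : Bool) (q : M.State) (s : InSym) (h : Fin M.tapes → M.Sym) (i : ℕ),
    i < 2 + 2 * M.tapes ∧ r = (b.toNat * nKey M + keyNo M q s h) * (2 + 2 * M.tapes) + i ∧
    v = actNo M b q s h i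

theorem ent_unique {r v v' : ℕ} (h : Ent M r v) (h' : Ent M r v') : v = v' := by
  obtain ⟨b, q, s, g, i, hi, hr, hv⟩ := h
  obtain ⟨b', q', s', g', i', hi', hr', hv'⟩ := h'
  have hk := keyNo_lt M q s g
  have hk' := keyNo_lt M q' s' g'
  have e := hr.symm.trans hr'
  have hp : 0 < 2 + 2 * M.tapes := by omega
  have a1 := congrArg (· % (2 + 2 * M.tapes)) e
  simp only [Nat.mul_add_mod_self_right, Nat.mod_eq_of_lt hi, Nat.mod_eq_of_lt hi'] at a1
  have a2 := congrArg (· / (2 + 2 * M.tapes)) e
  simp only [Nat.add_comm _ i, Nat.add_comm _ i', Nat.add_mul_div_right _ _ hp,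
    Nat.div_eq_of_lt hi, Nat.div_eq_of_lt hi', zero_add] at a2
  have hq : 0 < nKey M := lt_of_le_of_lt (Nat.zero_le _) hk
  have a3 := congrArg (· % nKey M) a2
  simp only [Nat.add_comm _ (keyNo M q s g), Nat.add_comm _ (keyNo M q' s' g'),
    Nat.add_mul_mod_self_right, Nat.mod_eq_of_lt hk, Nat.mod_eq_of_lt hk'] at a3
  have a4 := congrArg (· / nKey M) a2
  simp only [Nat.add_comm _ (keyNo M q s g), Nat.add_comm _ (keyNo M q' s' g'),
    Nat.add_mul_div_right _ _ hq, Nat.div_eq_of_lt hk, Nat.div_eq_of_lt hk', zero_add] at a4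
  obtain ⟨rfl, rfl, rfl⟩ := keyNo_inj M a3
  have a5 : b = b' := by
    cases b <;> cases b' <;> simp at a4 <;> rfl
  subst a5
  subst a1
  rw [hv, hv']

open Classical in
/-- The entries of the list. -/
noncomputable def fe (c j : ℕ) : ℕ :=
  if j = 0 then M.tapes
  else if j = 1 then nSy M
  else if j = 2 then nSt M
  else if j = 3 then stNo M M.start
  else if j = 4 then c
  else if j < 5 + nSt M then
    if h : ∃ q : M.State, stNo M q = j - 5 then verNo (M.verdict h.choose) else 0
  else if h : ∃ v, Ent M (j - (5 + nSt M)) v then h.choose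
  else 0

theorem fe_ver (c : ℕ) (q : M.State) : fe M c (5 + stNo M q) = verNo (M.verdict q) := by
  have h1 := stNo_lt M q
  unfold fe
  rw [if_neg (by omega), if_neg (by omega), if_neg (by omega), if_neg (by omega),
    if_neg (by omega), if_pos (by omega)]
  have h : ∃ q' : M.State, stNo M q' = 5 + stNo M q - 5 := ⟨q, by omega⟩
  rw [dif_pos h]
  have h2 := h.choose_spec
  have h3 : h.choose = q := stNo_inj M (by omega)
  rw [h3]

theorem fe_ent (c r v : ℕ) (hv : Ent M r v) : fe M c (5 + nSt M + r) = v := by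
  unfold fe
  rw [if_neg (by omega), if_neg (by omega), if_neg (by omega), if_neg (by omega),
    if_neg (by omega), if_neg (by omega)]
  have h : ∃ v', Ent M (5 + nSt M + r - (5 + nSt M)) v' := ⟨v, by
    rw [Nat.add_sub_cancel_left]
    exact hv⟩
  rw [dif_pos h]
  have hv' : Ent M (5 + nSt M + r - (5 + nSt M)) v := by
    rw [Nat.add_sub_cancel_left]
    exact hv
  exact ent_unique M h.choose_spec hv'

/-- MODULE E. -/
theorem codeExists : CodeExists := by
  intro M c
  have hd : ∀ j, j < 5 + nSt M + 2 * nKey M * (2 + 2 * M.tapes) →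
      ((List.range (5 + nSt M + 2 * nKey M * (2 + 2 * M.tapes))).map (fe M c)).getD j 0 =
        fe M c j := by
    intro j hj
    rw [List.getD_eq_getElem?_getD, List.getElem?_map, List.getElem?_range hj]
    rfl
  refine ⟨(List.range (5 + nSt M + 2 * nKey M * (2 + 2 * M.tapes))).map (fe M c), ?_, ?_, ?_, ?_,
    ?_, ?_, ?_, ?_⟩
  · rw [List.length_map, List.length_range]
  · rw [hd 0 (by omega)]; rfl
  · rw [hd 1 (by omega)]; rfl
  · rw [hd 2 (by omega)]; rfl
  · rw [hd 3 (by omega)]; rfl
  · rw [hd 4 (by omega)]; rfl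
  · intro q
    have h1 := stNo_lt M q
    rw [hd _ (by omega)]
    exact fe_ver M c q
  · intro b q s h i hi
    have h1 := keyNo_lt M q s h
    have h2 : b.toNat * nKey M + keyNo M q s h + 1 ≤ 2 * nKey M := by
      cases b
      · simp only [Bool.toNat_false]; omega
      · simp only [Bool.toNat_true]; omega
    have h3 : (b.toNat * nKey M + keyNo M q s h) * (2 + 2 * M.tapes) + (2 + 2 * M.tapes) ≤
        2 * nKey M * (2 + 2 * M.tapes) := by
      calc _ = (b.toNat * nKey M + keyNo M q s h + 1) * (2 + 2 * M.tapes) := by ring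
        _ ≤ _ := Nat.mul_le_mul_right _ h2
    rw [hd _ (by omega), Nat.add_assoc (5 + nSt M)]
    exact fe_ent M c _ _ ⟨b, q, s, h, i, hi, rfl, rfl⟩

end Vale.Agent.P313.UV.E

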